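import Vale.Agent.P231Z.Quad.Abs
import Vale.Agent.P231Z.Tube.Geo

/-! P231, loops and quadrilaterals (6): the case of the manifold. -/

set_option maxSynthPendingDepth 3
set_option linter.unusedSectionVars false
set_option linter.unusedVariables false

open Bundle Manifold Set Filter Module
open scoped ContDiff Manifold Topology

namespace Vale.Agent.P231Z.Quad

noncomputable section

open Vale.Agent.P234 Vale.Agent.P231 Vale.Agent.P231.Fm Vale.Agent.P231.W

variable {E : Type*} [NormedAddCommGroup E] [NormedSpace ℝ E]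
  {M : Type*} [MetricSpace M] [ChartedSpace E M]
  [RiemannianBundle (fun x : M => TangentSpace 𝓘(ℝ, E) x)]
  {e : ∀ x : M, TangentSpace 𝓘(ℝ, E) x → M}
  [FiniteDimensional ℝ E] [IsManifold 𝓘(ℝ, E) ∞ M]
  [IsContMDiffRiemannianBundle 𝓘(ℝ, E) ∞ E (fun x : M => TangentSpace 𝓘(ℝ, E) x)]
  [CompactSpace M] [ConnectedSpace M] [IsRiemannianManifold 𝓘(ℝ, E) M]

theorem sq_M (F : Facts e) {D : ℝ} (hD : 0 < D) (hB : InjGE e D) : Sq (dM E M) D :=
  ⟨hD, fun h => Tube.At_cont h, fun ha hb h => Tube.sm_dist_sq F hB ha hb h⟩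

/-- **the loops shorter than `4 D` are dominated by the closed chains of four points** -/
theorem exists_quad_M (F : Facts e) {D : ℝ} (hD : 0 < D) (hB : InjGE e D) :
    ∃ (q : Loop.X M → M × M × M × M) (p : M × M × M × M → Loop.X M)
      (hq : (Loop.dX (dM E M) D).Map (Res.dP4 E M D) q)
      (hp : (Res.dP4 E M D).Map (Loop.dX (dM E M) D) p), (∀ c, (q c).1 = Loop.ev c) ∧
      ∀ w : Form (Loop.dX (dM E M) D), w.d = 0 →
        ∃ κ : Form (Loop.dX (dM E M) D), w = Form.pull q hq (Form.pull p hp w) + κ.d := by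
  obtain ⟨q, hq, h1, h2⟩ := exists_quad (WD3.geoM F hB) (sq_M F hD hB)
  exact ⟨q, poly (WD3.geoM F hB), hq, map_poly (WD3.geoM F hB), h1, h2⟩

end

end Vale.Agent.P231Z.Quad
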