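import Vale.Agent.P231Z.Quad.Calc
import Vale.Agent.P231.H766.Uec2

/-! P231, loops and quadrilaterals (4): curves made of four arcs. -/

set_option linter.unusedSectionVars false
set_option linter.unusedVariables false

open Set Filter Module
open scoped ContDiff Topology ENNReal

namespace Vale.Agent.P231Z.Quad

noncomputable section

open Vale.Agent.P231 Vale.Agent.P231.Fm Vale.Agent.P231.H766

theorem floor_four (t : ℝ) : ⌊4 * (t + 1)⌋ = ⌊4 * t⌋ + 4 := by
  have h : 4 * (t + 1) = 4 * t + ((4 : ℤ) : ℝ) := by push_cast; ring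
  rw [h, Int.floor_add_intCast]

theorem fract_four (t : ℝ) : Int.fract (4 * (t + 1)) = Int.fract (4 * t) := by
  have h : 4 * (t + 1) = 4 * t + ((4 : ℤ) : ℝ) := by push_cast; ring
  rw [h, Int.fract_add_intCast]

theorem floor_fract {x : ℝ} {k : ℤ} (h1 : (k : ℝ) ≤ x) (h2 : x < k + 1) :
    ⌊x⌋ = k ∧ Int.fract x = x - k := by
  have h : ⌊x⌋ = k := Int.floor_eq_iff.2 ⟨h1, h2⟩
  exact ⟨h, by rw [Int.fract, h]⟩

theorem ev_near {V : Type} [NormedAddCommGroup V] [NormedSpace ℝ V] {τ : V → ℝ} {x : V}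
    (hτ : Sm τ x) : ∀ᶠ y in 𝓝 x, (⌊4 * τ x⌋ : ℝ) - 1 / 6 ≤ 4 * τ y ∧ 4 * τ y ≤ ⌊4 * τ x⌋ + 1 := by
  have h : ContinuousAt (fun y => 4 * τ y) x := continuousAt_const.mul hτ.continuousAt
  have h1 : (⌊4 * τ x⌋ : ℝ) - 1 / 6 < 4 * τ x := by linarith [Int.floor_le (4 * τ x)]
  filter_upwards [h.eventually_const_lt h1, h.eventually_lt_const (Int.lt_floor_add_one (4 * τ x))]
    with y k1 k2 using ⟨k1.le, k2.le⟩

/-! ### the staircase -/

/-- a monotone map of degree one which is constant near the quarters -/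
def bt (t : ℝ) : ℝ := (⌊4 * t⌋ + stp (2 * Int.fract (4 * t) - 1)) / 4

theorem bt_per (t : ℝ) : bt (t + 1) = bt t + 1 := by
  rw [bt, bt, floor_four, fract_four]
  push_cast
  ring

theorem bt_loc {t : ℝ} {k : ℤ} (h1 : (k : ℝ) - 1 / 6 ≤ 4 * t) (h2 : 4 * t ≤ k + 1) :
    bt t = (k + stp (2 * (4 * t - k) - 1)) / 4 := by
  rcases lt_or_ge (4 * t) k with h3 | h3
  · obtain ⟨e1, e2⟩ := floor_fract (x := 4 * t) (k := k - 1) (by push_cast; linarith)
      (by push_cast; linarith)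
    rw [bt, e1, e2, stp_of_ge (by push_cast; linarith), stp_of_le (by linarith)]
    push_cast
    ring
  rcases eq_or_lt_of_le h2 with h4 | h4
  · obtain ⟨e1, e2⟩ := floor_fract (x := 4 * t) (k := k + 1) (by push_cast; linarith)
      (by push_cast; linarith)
    rw [bt, e1, e2, stp_of_le (by push_cast; linarith), stp_of_ge (by linarith)]
    push_cast
    ring
  · obtain ⟨e1, e2⟩ := floor_fract h3 h4
    rw [bt, e1, e2]

theorem bt_contDiff : ContDiff ℝ ∞ bt := by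
  refine contDiff_iff_contDiffAt.2 fun t => ?_
  have h1 : ContDiff ℝ ∞ fun s : ℝ => ((⌊4 * t⌋ : ℝ) + stp (2 * (4 * s - ⌊4 * t⌋) - 1)) / 4 :=
    (contDiff_const.add (stp_contDiff.comp ((contDiff_const.mul
      ((contDiff_const.mul contDiff_id).sub contDiff_const)).sub contDiff_const))).div_const 4
  refine h1.contDiffAt.congr_of_eventuallyEq ?_
  filter_upwards [ev_near (τ := fun s : ℝ => s) (Sm.of_contDiff contDiff_id t)] with s hs
  exact bt_loc hs.1 hs.2

theorem bt_mono : Monotone bt := by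
  intro s t h
  have h1 : ⌊4 * s⌋ ≤ ⌊4 * t⌋ := Int.floor_mono (by linarith)
  rw [bt, bt]
  refine div_le_div_of_nonneg_right ?_ (by norm_num)
  rcases eq_or_lt_of_le h1 with h2 | h2
  · have h3 : Int.fract (4 * s) ≤ Int.fract (4 * t) := by
      rw [Int.fract, Int.fract, h2]
      linarith
    have h4 := stp_mono (show 2 * Int.fract (4 * s) - 1 ≤ 2 * Int.fract (4 * t) - 1 by linarith)
    rw [h2]
    linarith
  · have h3 : ((⌊4 * s⌋ + 1 : ℤ) : ℝ) ≤ ⌊4 * t⌋ := Int.cast_le.2 h2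
    push_cast at h3
    linarith [stp_le_one (2 * Int.fract (4 * s) - 1), stp_nonneg (2 * Int.fract (4 * t) - 1)]

/-! ### piecewise curves -/

variable {M : Type*} [MetricSpace M] {DM : Dif M} {D : ℝ} (g : Geo DM D)

/-- on the quarter number `k`: the geodesic from `A k` to `B k 0`, then the curve `B k` -/
def Pw (A : ℤ → M) (B : ℤ → ℝ → M) (t : ℝ) : M :=
  g.G (A ⌊4 * t⌋) (B ⌊4 * t⌋ (Int.fract (4 * t))) (stp (2 * Int.fract (4 * t)))

theorem Pw_per {A : ℤ → M} {B : ℤ → ℝ → M} (hA : ∀ k, A (k + 4) = A k)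
    (hB : ∀ k r, B (k + 4) r = B k r) (t : ℝ) : Pw g A B (t + 1) = Pw g A B t := by
  rw [Pw, Pw, floor_four, fract_four, hA, hB]

/-- admissible data -/
structure Adm (D : ℝ) (A : ℤ → M) (B : ℤ → ℝ → M) : Prop where
  lt : ∀ k r, dist (A k) (B k r) < D
  fin : ∀ k r, 5 / 6 ≤ r → B k r = A (k + 1)
  ini : ∀ k r, r ≤ 1 / 2 → B k r = B k 0

theorem Pw_loc {A : ℤ → M} {B : ℤ → ℝ → M} (h : Adm D A B) {t : ℝ} {k : ℤ}
    (h1 : (k : ℝ) - 1 / 6 ≤ 4 * t) (h2 : 4 * t ≤ k + 1) :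
    Pw g A B t = g.G (A k) (B k (4 * t - k)) (stp (2 * (4 * t - k))) := by
  rcases lt_or_ge (4 * t) k with h3 | h3
  · obtain ⟨e1, e2⟩ := floor_fract (x := 4 * t) (k := k - 1) (by push_cast; linarith)
      (by push_cast; linarith)
    rw [Pw, e1, e2, stp_of_ge (by push_cast; linarith), stp_of_le (by linarith),
      g.one _ _ (h.lt _ _), g.zero _ _ (h.lt _ _), h.fin _ _ (by push_cast; linarith),
      sub_add_cancel]
  rcases eq_or_lt_of_le h2 with h4 | h4
  · obtain ⟨e1, e2⟩ := floor_fract (x := 4 * t) (k := k + 1) (by push_cast; linarith)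
      (by push_cast; linarith)
    rw [Pw, e1, e2, stp_of_le (by push_cast; linarith), stp_of_ge (by linarith),
      g.one _ _ (h.lt _ _), g.zero _ _ (h.lt _ _), h.fin _ _ (by linarith)]
  · obtain ⟨e1, e2⟩ := floor_fract h3 h4
    rw [Pw, e1, e2]

theorem At_Pw {V : Type} [NormedAddCommGroup V] [NormedSpace ℝ V] [FiniteDimensional ℝ V]
    {A : V → ℤ → M} {B : V → ℤ → ℝ → M} {τ : V → ℝ} {x : V}
    (h : ∀ᶠ y in 𝓝 x, Adm D (A y) (B y)) (hA : ∀ k, DM.At (fun y => A y k) x)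
    (hB : ∀ (k : ℤ) (r : V → ℝ), Sm r x → DM.At (fun y => B y k (r y)) x) (hτ : Sm τ x) :
    DM.At (fun y => Pw g (A y) (B y) (τ y)) x := by
  have h1 : Sm (fun y => 4 * τ y - ⌊4 * τ x⌋) x := by
    filter_upwards [hτ] with y hy using (contDiffAt_const.mul hy).sub contDiffAt_const
  have h2 : Sm (fun y => stp (2 * (4 * τ y - ⌊4 * τ x⌋))) x := by
    filter_upwards [h1] with y hy using stp_contDiff.contDiffAt.comp y (contDiffAt_const.mul hy)
  refine DM.congr (g.smooth (hA ⌊4 * τ x⌋) (hB ⌊4 * τ x⌋ _ h1) h2 (h.self_of_nhds.lt _ _)) ?_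
  filter_upwards [h, ev_near hτ] with y k1 k2
  exact (Pw_loc g k1 k2.1 k2.2).symm

theorem var_arc {a : M} {b : ℝ → M} (h : ∀ r, dist a (b r) < D) (hb : ∀ r ≤ 1 / 2, b r = b 0) :
    eVariationOn (fun r => g.G a (b r) (stp (2 * r))) (Icc 0 1) ≤
      edist a (b 0) + eVariationOn b (Icc (1 / 2) 1) := by
  rw [var_split _ (s := 1 / 2) (by norm_num) (by norm_num)]
  refine add_le_add ?_ (le_of_eq (eVariationOn.eq_of_eqOn fun r hr => ?_))
  · refine le_trans (le_of_eq (eVariationOn.eq_of_eqOn fun r hr => ?_)) (var_G g (h 0))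
    rw [hb r hr.2]
  · rw [stp_of_ge (by linarith [hr.1]), g.one _ _ (h r)]

theorem var_quarter {A : ℤ → M} {B : ℤ → ℝ → M} (h : Adm D A B) (k : ℤ) {a b : ℝ}
    (ha : 4 * a = k) (hb : 4 * b = k + 1) :
    eVariationOn (Pw g A B) (Icc a b) ≤
      edist (A k) (B k 0) + eVariationOn (B k) (Icc (1 / 2) 1) := by
  refine le_trans ?_ (var_arc g (h.lt k) (h.ini k))
  have e : EqOn (Pw g A B) ((fun r => g.G (A k) (B k r) (stp (2 * r))) ∘ fun t => 4 * t - k)
      (Icc a b) := fun t ht => Pw_loc g h (by linarith [ht.1]) (by linarith [ht.2])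
  rw [eVariationOn.eq_of_eqOn e]
  exact eVariationOn.comp_le_of_monotoneOn _ _ (fun s _ t _ hst => by linarith)
    fun t ht => ⟨by linarith [ht.1], by linarith [ht.2]⟩

theorem var_Pw {A : ℤ → M} {B : ℤ → ℝ → M} (h : Adm D A B) {l : ℤ → ℝ} (h0 : ∀ k, 0 ≤ l k)
    (hl : ∀ k, edist (A k) (B k 0) + eVariationOn (B k) (Icc (1 / 2) 1) ≤ ENNReal.ofReal (l k)) :
    eVariationOn (Pw g A B) (Icc 0 1) ≤ ENNReal.ofReal (l 0 + l 1 + l 2 + l 3) := by
  have sp : ∀ a b c : ℝ, a ≤ b → b ≤ c → eVariationOn (Pw g A B) (Icc a c) =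
      eVariationOn (Pw g A B) (Icc a b) + eVariationOn (Pw g A B) (Icc b c) := by
    intro a b c h1 h2
    simpa using (eVariationOn.Icc_add_Icc (Pw g A B) (s := univ) h1 h2 (mem_univ _)).symm
  rw [sp 0 (3 / 4) 1 (by norm_num) (by norm_num), sp 0 (1 / 2) (3 / 4) (by norm_num) (by norm_num),
    sp 0 (1 / 4) (1 / 2) (by norm_num) (by norm_num),
    ENNReal.ofReal_add (add_nonneg (add_nonneg (h0 0) (h0 1)) (h0 2)) (h0 3),
    ENNReal.ofReal_add (add_nonneg (h0 0) (h0 1)) (h0 2), ENNReal.ofReal_add (h0 0) (h0 1)]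
  exact add_le_add (add_le_add (add_le_add
    ((var_quarter g h 0 (by norm_num) (by norm_num)).trans (hl 0))
    ((var_quarter g h 1 (by norm_num) (by norm_num)).trans (hl 1)))
    ((var_quarter g h 2 (by norm_num) (by norm_num)).trans (hl 2)))
    ((var_quarter g h 3 (by norm_num) (by norm_num)).trans (hl 3))

end

end Vale.Agent.P231Z.Quad
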