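import Vale.Agent.P231Z.Quad.Par
import Vale.Agent.P231Z.Quad.Arc
import Vale.Agent.P231Z.Loop.Defs
import Vale.Agent.P231Z.Res.Defs

/-! P231, loops and quadrilaterals (5): the space of loops shorter than `4 D` is dominated by the
space of closed chains of four points. -/

set_option linter.unusedSectionVars false
set_option linter.unusedVariables false

open Set Filter Module
open scoped ContDiff Topology ENNReal

namespace Vale.Agent.P231Z.Quad

noncomputable section

open Vale.Agent.P231 Vale.Agent.P231.Fm Vale.Agent.P231.H766 Vale.Agent.P231Z.Loop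

variable {M : Type*} [MetricSpace M] {DM : Dif M} {D : ℝ}

/-- the vertices of a chain -/
def vx (z : M × M × M × M) (k : ℤ) : M :=
  if k % 4 = 0 then z.1 else if k % 4 = 1 then z.2.1 else if k % 4 = 2 then z.2.2.1 else z.2.2.2

theorem vx_per (z : M × M × M × M) (k : ℤ) : vx z (k + 4) = vx z k := by
  simp only [vx, Int.add_emod_right]

theorem vx_lt {z : M × M × M × M} (hz : z ∈ Res.sP4 D) (k : ℤ) :
    dist (vx z k) (vx z (k + 1)) < D := by
  obtain ⟨h0, h1, h2, h3⟩ := hz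
  have h : (k % 4 = 0 ∧ (k + 1) % 4 = 1) ∨ (k % 4 = 1 ∧ (k + 1) % 4 = 2) ∨
      (k % 4 = 2 ∧ (k + 1) % 4 = 3) ∨ (k % 4 = 3 ∧ (k + 1) % 4 = 0) := by omega
  rcases h with h | h | h | h <;> simp only [vx, h.1, h.2] <;> simpa

/-- the space of closed chains -/
abbrev dP (DM : Dif M) (D : ℝ) : Dif (M × M × M × M) :=
  (DM.prod (DM.prod (DM.prod DM))).on (Res.sP4 D)

theorem map_vx (k : ℤ) : (dP DM D).Map DM (fun z => vx z k) := by
  intro V _ _ _ u x hu
  unfold vx
  split_ifs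
  exacts [hu.1.1, hu.1.2.1, hu.1.2.2.1, hu.1.2.2.2]

theorem map_loop {B : Type*} {DB : Dif B} {f : B → X M}
    (hf : (DB.prod (Dif.lin ℝ)).Map DM (fun p => (f p.1).1 p.2))
    (hl : ∀ b, Gd DB b → len (f b) < ENNReal.ofReal (4 * D)) : DB.Map (dX DM D) f :=
  map_to' hf fun h => hl _ (ev_gd h).self_of_nhds

variable (g : Geo DM D)

/-- the quadrilateral with given vertices -/
def poly (z : M × M × M × M) : X M :=
  ⟨Pw g (vx z) (fun k _ => vx z (k + 1)),
    Pw_per g (vx_per z) fun k _ => by rw [add_right_comm, vx_per]⟩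

theorem adm_poly {z : M × M × M × M} (hz : z ∈ Res.sP4 D) :
    Adm D (vx z) (fun k _ => vx z (k + 1)) :=
  ⟨fun k _ => vx_lt hz k, fun _ _ _ => rfl, fun _ _ _ => rfl⟩

theorem map_poly : (dP DM D).Map (dX DM D) (poly g) := by
  have m1 : ((dP DM D).prod (Dif.lin ℝ)).Map DM (fun p => (poly g p.1).1 p.2) :=
    fun {V} _ _ _ {u x} hu => At_Pw g (A := fun y => vx (u y).1)
      (B := fun y k _ => vx (u y).1 (k + 1)) (τ := fun y => (u y).2)
      (hu.1.2.mono fun y hy => adm_poly hy) (fun k => map_vx k hu.1)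
      (fun k _ _ => map_vx (k + 1) hu.1) hu.2
  intro V _ _ _ u x hu
  refine map_loop m1 (fun z hz => ?_) hu
  have hz' : z ∈ Res.sP4 D := hz.2.self_of_nhds
  have h1 := var_Pw g (adm_poly hz') (l := fun k => dist (vx z k) (vx z (k + 1)))
    (fun _ => dist_nonneg) fun k => by
      rw [eVariationOn.constant_on (by rintro _ ⟨_, _, rfl⟩ _ ⟨_, _, rfl⟩; rfl), add_zero,
        edist_dist]
  refine lt_of_le_of_lt h1 ((ENNReal.ofReal_lt_ofReal_iff_of_nonneg (by positivity)).2 ?_)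
  linarith [vx_lt hz' 0, vx_lt hz' 1, vx_lt hz' 2, vx_lt hz' 3]

/-! ### loops of speed less than `4 D` -/

section Slow

variable {Y : Type*} {DY : Dif Y} {ct : Y → ℝ → M}

/-- the four quarter points -/
def quad (ct : Y → ℝ → M) (c : Y) : M × M × M × M :=
  (ct c 0, ct c (1 / 4), ct c (2 / 4), ct c (3 / 4))

theorem vx_quad {c : Y} (hc : ∀ t, ct c (t + 1) = ct c t) (k : ℤ) :
    vx (quad ct c) k = ct c (k / 4) := by
  have hp : Function.Periodic (ct c) 1 := hc
  have h1 : ct c (k / 4) = ct c ((k % 4 : ℤ) / 4) := by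
    have h2 : (k : ℝ) / 4 = (k % 4 : ℤ) / 4 + (k / 4 : ℤ) * 1 := by
      have h3 : (k : ℝ) = ((k % 4 + 4 * (k / 4) : ℤ) : ℝ) := by rw [Int.emod_add_mul_ediv]
      rw [Int.cast_add, Int.cast_mul] at h3
      rw [h3]
      simp only [Int.cast_ofNat]
      nth_rewrite 1 [add_div]
      ring
    rw [h2, hp.int_mul]
  have h : k % 4 = 0 ∨ k % 4 = 1 ∨ k % 4 = 2 ∨ k % 4 = 3 := by omega
  rw [h1]
  rcases h with h | h | h | h <;> simp [vx, quad, h]

/-- the second point of the arc -/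
def bq (c : ℝ → M) (s : ℝ) (k : ℤ) (r : ℝ) : M :=
  c ((k + (stp s + (1 - stp s) * stp (2 * r - 1))) / 4)

theorem mq_mem (s r : ℝ) : stp s + (1 - stp s) * stp r ∈ Icc (0 : ℝ) 1 := by
  have h1 := mul_nonneg (sub_nonneg.2 (stp_le_one s)) (stp_nonneg r)
  have h2 := mul_le_mul_of_nonneg_left (stp_le_one r) (sub_nonneg.2 (stp_le_one s))
  exact ⟨by linarith [stp_nonneg s], by linarith⟩

theorem L_nonneg {c : ℝ → M} {L : ℝ} (h : ∀ s s', s ≤ s' → dist (c s) (c s') ≤ L * (s' - s)) :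
    0 ≤ L := by
  have h1 := h 0 1 zero_le_one
  linarith [dist_nonneg (x := c 0) (y := c 1)]

theorem adm_bq {c : ℝ → M} {L : ℝ} (hL : L < 4 * D)
    (h : ∀ s s', s ≤ s' → dist (c s) (c s') ≤ L * (s' - s)) (s : ℝ) :
    Adm D (fun k : ℤ => c (k / 4)) (bq c s) := by
  refine ⟨fun k r => ?_, fun k r hr => ?_, fun k r hr => ?_⟩
  · obtain ⟨h1, h2⟩ := mq_mem s (2 * r - 1)
    refine lt_of_le_of_lt (h _ _ (by linarith)) ?_
    have h3 := mul_le_mul_of_nonneg_left h2 (L_nonneg h)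
    linarith
  · rw [bq, stp_of_ge (x := 2 * r - 1) (by linarith)]
    congr 1
    push_cast
    ring
  · rw [bq, bq, stp_of_le (x := 2 * r - 1) (by linarith), stp_of_le (x := 2 * 0 - 1) (by norm_num)]

theorem var_bq {c : ℝ → M} {L : ℝ} (hL : L < 4 * D)
    (h : ∀ s s', s ≤ s' → dist (c s) (c s') ≤ L * (s' - s)) (s : ℝ) :
    eVariationOn (Pw g (fun k : ℤ => c (k / 4)) (bq c s)) (Icc 0 1) < ENNReal.ofReal (4 * D) := by
  have h0 := L_nonneg h
  have h1 := var_Pw g (adm_bq hL h s) (l := fun _ => L / 4) (fun _ => by linarith) fun k => by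
    have k1 : edist (c (k / 4)) (bq c s k 0) ≤ ENNReal.ofReal (L * (stp s / 4)) := by
      rw [edist_dist, bq, stp_of_le (x := 2 * 0 - 1) (by norm_num)]
      refine ENNReal.ofReal_le_ofReal ((h _ _ (by linarith [stp_nonneg s])).trans (le_of_eq ?_))
      ring
    have k2 := var_le_of_dom (c := bq c s k)
      (B := fun r => L * ((k + (stp s + (1 - stp s) * stp (2 * r - 1))) / 4)) (a := 1 / 2) (b := 1)
      (by norm_num) fun x _ y _ hxy => by
        have k3 := mul_le_mul_of_nonneg_left (stp_mono (show 2 * x - 1 ≤ 2 * y - 1 by linarith))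
          (sub_nonneg.2 (stp_le_one s))
        exact (h _ _ (by linarith)).trans (le_of_eq (by ring))
    rw [stp_of_ge (x := 2 * 1 - 1) (by norm_num), stp_of_le (x := 2 * (1 / 2) - 1) (by norm_num)]
      at k2
    refine (add_le_add k1 k2).trans (le_of_eq ?_)
    rw [← ENNReal.ofReal_add (mul_nonneg h0 (by linarith [stp_nonneg s]))
      (by nlinarith [stp_le_one s])]
    congr 1
    ring
  refine lt_of_le_of_lt h1 ((ENNReal.ofReal_lt_ofReal_iff_of_nonneg (by linarith)).2 ?_)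
  linarith

/-- the homotopy from a slow loop to its quadrilateral -/
def hq (ct : Y → ℝ → M) (hper : ∀ c t, ct c (t + 1) = ct c t) (p : Y × ℝ) : X M :=
  ⟨Pw g (fun k : ℤ => ct p.1 (k / 4)) (bq (ct p.1) p.2), Pw_per g
    (fun k => by rw [← hper p.1 (k / 4)]; congr 1; push_cast; ring)
    fun k r => by rw [bq, bq, ← hper p.1 ((k + _) / 4)]; congr 1; push_cast; ring⟩

variable (hper : ∀ c t, ct c (t + 1) = ct c t)
  (hsm : (DY.prod (Dif.lin ℝ)).Map DM (fun p => ct p.1 p.2))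
  (hlip : ∀ c, Gd DY c → ∃ L < 4 * D, ∀ s s', s ≤ s' → dist (ct c s) (ct c s') ≤ L * (s' - s))

include hsm hlip hper in
theorem map_quad : DY.Map (dP DM D) (quad ct) := by
  intro V _ _ _ u x hu
  have h1 : ∀ t : ℝ, DM.At (fun y => ct (u y) t) x := fun t =>
    hsm (u := fun y => (u y, t)) ⟨hu, Sm.of_contDiff contDiff_const _⟩
  refine ⟨⟨h1 _, h1 _, h1 _, h1 _⟩, ?_⟩
  filter_upwards [ev_gd hu] with y hy
  obtain ⟨L, hL, h⟩ := hlip _ hy
  have h2 := h (3 / 4) (0 + 1) (by norm_num)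
  rw [hper] at h2
  exact ⟨(h _ _ (by norm_num)).trans_lt (by linarith), (h _ _ (by norm_num)).trans_lt (by linarith),
    (h _ _ (by norm_num)).trans_lt (by linarith), h2.trans_lt (by linarith)⟩

include hsm hlip in
theorem map_hq : (DY.prod (Dif.lin ℝ)).Map (dX DM D) (hq g ct hper) := by
  have m1 : ((DY.prod (Dif.lin ℝ)).prod (Dif.lin ℝ)).Map DM
      (fun p => (hq g ct hper p.1).1 p.2) := by
    intro V _ _ _ u x hu
    refine At_Pw g (A := fun y (k : ℤ) => ct (u y).1.1 (k / 4))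
      (B := fun y => bq (ct (u y).1.1) (u y).1.2) (τ := fun y => (u y).2) ?_
      (fun k => hsm (u := fun y => ((u y).1.1, (k : ℝ) / 4))
        ⟨hu.1.1, Sm.of_contDiff contDiff_const _⟩) (fun k r hr => ?_) hu.2
    · filter_upwards [ev_gd hu.1.1] with y hy
      obtain ⟨L, hL, h⟩ := hlip _ hy
      exact adm_bq hL h _
    · refine hsm (u := fun y => ((u y).1.1,
        (k + (stp (u y).1.2 + (1 - stp (u y).1.2) * stp (2 * r y - 1))) / 4)) ⟨hu.1.1, ?_⟩
      have h1 : Sm (fun y => (u y).1.2) x := hu.1.2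
      filter_upwards [h1, hr] with y k1 k2
      have k3 := stp_contDiff.contDiffAt.comp y k1
      have k4 := stp_contDiff.contDiffAt.comp y
        ((contDiffAt_const (c := (2 : ℝ)).mul k2).sub (contDiffAt_const (c := (1 : ℝ))))
      exact (contDiffAt_const.add (k3.add ((contDiffAt_const.sub k3).mul k4))).div_const 4
  intro V _ _ _ u x hu
  refine map_loop m1 (fun p hp => ?_) hu
  obtain ⟨L, hL, h⟩ := hlip _ hp.fst
  exact var_bq g hL h _

theorem hq_one (c : Y) : hq g ct hper (c, 1) = poly g (quad ct c) := by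
  refine X.ext fun t => ?_
  change Pw g (fun k : ℤ => ct c (k / 4)) (bq (ct c) 1) t =
    Pw g (vx (quad ct c)) (fun k _ => vx (quad ct c) (k + 1)) t
  rw [Pw, Pw, vx_quad (hper c), vx_quad (hper c), bq, stp_of_ge (x := 1) (by norm_num)]
  congr 2
  push_cast
  ring

include hlip in
theorem hq_zero (hD : 0 < D) {c : Y} (hc : Gd DY c) (t : ℝ) :
    (hq g ct hper (c, 0)).1 t = ct c (bt t) := by
  obtain ⟨L, hL, h⟩ := hlip _ hc
  have h1 := (adm_bq hL h 0).lt ⌊4 * t⌋ (Int.fract (4 * t))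
  change Pw g (fun k : ℤ => ct c (k / 4)) (bq (ct c) 0) t = _
  rw [Pw]
  rcases le_total (Int.fract (4 * t)) (1 / 2) with h2 | h2
  · rw [bq, bt, stp_of_le (x := 0) (by norm_num), stp_of_le (x := 2 * _ - 1) (by linarith),
      mul_zero, add_zero, add_zero, G_self g hD (stp_mem _)]
  · rw [stp_of_ge (x := 2 * _) (by linarith), g.one _ _ h1, bq, bt, stp_of_le (x := 0) (by norm_num),
      zero_add, sub_zero, one_mul]

end Slow

/-- **the loops are dominated by the quadrilaterals** -/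
theorem exists_quad (hs : Sq DM D) :
    ∃ (q : X M → M × M × M × M) (hq : (dX DM D).Map (dP DM D) q), (∀ c, (q c).1 = ev c) ∧
      ∀ w : Form (dX DM D), w.d = 0 →
        ∃ κ : Form (dX DM D), w = Form.pull q hq (Form.pull (poly g) (map_poly g) w) + κ.d := by
  have hL : Lf (dX DM D) DM (fun c => c.1) (4 * D) :=
    ⟨map_eval, fun c => c.2, fun c hc => len_lt hc⟩
  obtain ⟨τ, hτ, h0, h1, h2, h3⟩ := exists_par hs hL
  set ct : X M → ℝ → M := fun c s => c.1 (τ (c, s)) with hct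
  have hper : ∀ c t, ct c (t + 1) = ct c t := fun c t => by
    simp only [hct]
    rw [h1, c.2]
  have hsm : ((dX DM D).prod (Dif.lin ℝ)).Map DM (fun p => ct p.1 p.2) :=
    fun {V} _ _ _ {u x} hu => map_eval (u := fun y => ((u y).1, τ (u y))) ⟨hu.1, hτ hu⟩
  have mq : (dX DM D).Map (dP DM D) (quad ct) := map_quad hper hsm h3
  have mp : (dP DM D).Map (dX DM D) (poly g) := map_poly g
  have m2 : ((dX DM D).prod (Dif.lin ℝ)).Map (dX DM D) (hq g ct hper) := map_hq g hper hsm h3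
  have hm : ∀ (c : X M) (r t : ℝ), (1 - stp r) * (t + 1) + stp r * τ (c, bt (t + 1)) =
      (1 - stp r) * t + stp r * τ (c, bt t) + 1 := fun c r t => by
    rw [bt_per, h1]
    ring
  let H : X M × ℝ → X M := fun p =>
    ⟨fun t => p.1.1 ((1 - stp p.2) * t + stp p.2 * τ (p.1, bt t)), fun t => by
      simp only
      rw [hm, p.1.2]⟩
  have m1 : ((dX DM D).prod (Dif.lin ℝ)).Map (dX DM D) H := by
    have k1 : (((dX DM D).prod (Dif.lin ℝ)).prod (Dif.lin ℝ)).Map (Dif.lin ℝ)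
        (fun z => stp z.1.2) := map_fun (map_t.comp Dif.map_fst) stp_contDiff
    have k2 : (((dX DM D).prod (Dif.lin ℝ)).prod (Dif.lin ℝ)).Map (Dif.lin ℝ)
        (fun z => τ (z.1.1, bt z.2)) :=
      fun {V} _ _ _ {u x} hu => hτ (u := fun y => ((u y).1.1, bt (u y).2))
        ⟨hu.1.1, map_fun map_t bt_contDiff hu⟩
    have k3 : (((dX DM D).prod (Dif.lin ℝ)).prod (Dif.lin ℝ)).Map (Dif.lin ℝ)
        (fun z => (1 - stp z.1.2) * z.2 + stp z.1.2 * τ (z.1.1, bt z.2)) :=
      map_add' (map_mul' (map_sub' (map_const 1) k1) map_t) (map_mul' k1 k2)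
    have k4 : (((dX DM D).prod (Dif.lin ℝ)).prod (Dif.lin ℝ)).Map DM
        (fun z => (H z.1).1 z.2) :=
      fun {V} _ _ _ {u x} hu => map_eval (u := fun y => ((u y).1.1,
        (1 - stp (u y).1.2) * (u y).2 + stp (u y).1.2 * τ ((u y).1.1, bt (u y).2))) ⟨hu.1.1, k3 hu⟩
    intro V _ _ _ u x hu
    refine map_loop k4 (fun p hp => lt_of_le_of_lt ?_ (hL.var _ hp.fst)) hu
    have k5 := var_reparam p.1.2 (m := fun t => (1 - stp p.2) * t + stp p.2 * τ (p.1, bt t))
      (a := 0) (fun s _ t _ hst => add_le_add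
        (mul_le_mul_of_nonneg_left hst (sub_nonneg.2 (stp_le_one _)))
        (mul_le_mul_of_nonneg_left (h2 p.1 (bt_mono hst)) (stp_nonneg _))) (hm _ _ _)
    rw [zero_add] at k5
    exact k5
  have mf : (dX DM D).Map (dX DM D) (fun c => H (c, 1)) :=
    fun {V} _ _ _ {u x} hu => m1 (u := fun y => (u y, 1)) ⟨hu, Sm.of_contDiff contDiff_const _⟩
  refine ⟨quad ct, mq, fun c => ?_, fun w hw => ?_⟩
  · change c.1 (τ (c, 0)) = c.1 0
    rw [h0]
  have e1 := pull_htpy m1 mf (g := id) Dif.map_id (fun _ _ => rfl) (fun c _ => X.ext fun t => by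
    change c.1 ((1 - stp 0) * t + stp 0 * _) = c.1 t
    rw [stp_of_le (by norm_num), sub_zero, one_mul, zero_mul, add_zero]) hw
  have e2 := pull_htpy m2 (f := poly g ∘ quad ct) (mp.comp mq) mf (fun c _ => hq_one g hper c)
    (fun c hc => X.ext fun t => by
      rw [hq_zero g hper h3 hs.pos hc]
      change _ = c.1 ((1 - stp 1) * t + stp 1 * _)
      rw [stp_of_ge (by norm_num), sub_self, one_mul, zero_mul, zero_add]) hw
  rw [Form.pull_id] at e1
  rw [Form.pull_comp mq mp] at e2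
  refine ⟨-(Form.K (Form.pull H m1 w) + Form.K (Form.pull (hq g ct hper) m2 w)), ?_⟩
  rw [Form.d_neg, Form.d_add, ← e1, ← e2]
  abel

end

end Vale.Agent.P231Z.Quad
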