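import Vale.Agent.P231Z.Tube.Polar
import Vale.Agent.P231.Co.Hom

/-! P231, loops and quadrilaterals (1): calculus on cylinders over a diffeological space. -/

set_option linter.unusedSectionVars false
set_option linter.unusedVariables false

open Set Filter Module MeasureTheory
open scoped ContDiff Topology

namespace Vale.Agent.P231Z.Quad

noncomputable section

open Vale.Agent.P231 Vale.Agent.P231.Fm

variable {X Y : Type*} {DX : Dif X} {DY : Dif Y}

/-- points through which a plot passes -/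
def Gd (DX : Dif X) (x : X) : Prop := DX.At (fun _ : ℝ => x) 0

section Plot

variable {V : Type} [NormedAddCommGroup V] [NormedSpace ℝ V] [FiniteDimensional ℝ V]

theorem ev_gd {u : V → X} {x : V} (hu : DX.At u x) : ∀ᶠ y in 𝓝 x, Gd DX (u y) := by
  filter_upwards [DX.open' hu] with y hy using Dif.At_const hy 0

theorem Gd.at {x : X} (hx : Gd DX x) (y : V) : DX.At (fun _ : V => x) y := Dif.At_const hx y

theorem at_cyl {u : V → X} {x : V} (hu : DX.At u x) (t : ℝ) :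
    (DX.prod (Dif.lin ℝ)).At (fun p : V × ℝ => (u p.1, p.2)) (x, t) :=
  ⟨DX.comp (u := u) (g := Prod.fst) (x := ((x, t) : V × ℝ)) hu (Sm.of_contDiff contDiff_fst _),
    Sm.of_contDiff contDiff_snd _⟩

/-- the derivative in the last variable -/
theorem sm_deriv {f : V × ℝ → ℝ} {p : V × ℝ} (hf : Sm f p) :
    Sm (fun z : V × ℝ => deriv (fun r => f (z.1, r)) z.2) p := by
  have h1 : Sm (fun z : V × ℝ => fderiv ℝ f z ((0 : V), (1 : ℝ))) p :=
    Sm.comp (f := fun L : V × ℝ →L[ℝ] ℝ => L ((0 : V), (1 : ℝ)))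
      (Sm.of_contDiff (ContinuousLinearMap.apply ℝ ℝ ((0 : V), (1 : ℝ))).contDiff _) hf.fderiv
  refine h1.congr ?_
  filter_upwards [hf.eventually] with z hz
  have h4 : HasFDerivAt (fun r : ℝ => ((z.1, r) : V × ℝ)) (ContinuousLinearMap.inr ℝ V ℝ) z.2 :=
    hasFDerivAt_prodMk_right z.1 z.2
  have h5 := HasFDerivAt.comp z.2 (g := f) hz.differentiableAt.hasFDerivAt h4
  have h6 := h5.hasDerivAt.deriv
  exact Eq.symm (by simpa [Function.comp_def] using h6)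

end Plot

theorem Gd.map {f : X → Y} (hf : DX.Map DY f) {x : X} (hx : Gd DX x) : Gd DY (f x) := hf hx

theorem Gd.fst {x : X × Y} (hx : Gd (DX.prod DY) x) : Gd DX x.1 := hx.1

theorem Gd.cyl {x : X} (hx : Gd DX x) (t : ℝ) : Gd (DX.prod (Dif.lin ℝ)) (x, t) :=
  ⟨hx, Sm.of_contDiff contDiff_const _⟩

theorem map_congr {f g : X → Y} (hf : DX.Map DY f) (h : ∀ x, Gd DX x → f x = g x) :
    DX.Map DY g := by
  intro V _ _ _ u x hu
  refine DY.congr (hf hu) ?_
  filter_upwards [ev_gd hu] with y hy using h _ hy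

theorem map_const (c : ℝ) : DX.Map (Dif.lin ℝ) (fun _ => c) := fun _ =>
  Sm.of_contDiff contDiff_const _

theorem map_t : (DX.prod (Dif.lin ℝ)).Map (Dif.lin ℝ) (fun p => p.2) := fun hu => hu.2

theorem map_add' {f g : X → ℝ} (hf : DX.Map (Dif.lin ℝ) f) (hg : DX.Map (Dif.lin ℝ) g) :
    DX.Map (Dif.lin ℝ) (fun x => f x + g x) := by
  intro V _ _ _ u x hu
  have h1 : Sm (f ∘ u) x := hf hu
  have h2 : Sm (g ∘ u) x := hg hu
  filter_upwards [h1, h2] with y k1 k2 using k1.add k2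

theorem map_sub' {f g : X → ℝ} (hf : DX.Map (Dif.lin ℝ) f) (hg : DX.Map (Dif.lin ℝ) g) :
    DX.Map (Dif.lin ℝ) (fun x => f x - g x) := by
  intro V _ _ _ u x hu
  have h1 : Sm (f ∘ u) x := hf hu
  have h2 : Sm (g ∘ u) x := hg hu
  filter_upwards [h1, h2] with y k1 k2 using k1.sub k2

theorem map_mul' {f g : X → ℝ} (hf : DX.Map (Dif.lin ℝ) f) (hg : DX.Map (Dif.lin ℝ) g) :
    DX.Map (Dif.lin ℝ) (fun x => f x * g x) := by
  intro V _ _ _ u x hu
  have h1 : Sm (f ∘ u) x := hf hu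
  have h2 : Sm (g ∘ u) x := hg hu
  filter_upwards [h1, h2] with y k1 k2 using k1.mul k2

theorem map_fun {f : X → ℝ} (hf : DX.Map (Dif.lin ℝ) f) {φ : ℝ → ℝ} (hφ : ContDiff ℝ ∞ φ) :
    DX.Map (Dif.lin ℝ) (fun x => φ (f x)) := fun hu => Dif.map_lin hφ (hf hu)

theorem map_sqrt {f : X → ℝ} (hf : DX.Map (Dif.lin ℝ) f) (h : ∀ x, Gd DX x → 0 < f x) :
    DX.Map (Dif.lin ℝ) (fun x => Real.sqrt (f x)) := by
  intro V _ _ _ u x hu
  have h1 : Sm (f ∘ u) x := hf hu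
  filter_upwards [h1, ev_gd hu] with y k1 k2 using k1.sqrt (h _ k2).ne'

/-- the integral over time of a smooth function on a cylinder is smooth -/
theorem map_int {f : X × ℝ → ℝ} (hf : (DX.prod (Dif.lin ℝ)).Map (Dif.lin ℝ) f) :
    DX.Map (Dif.lin ℝ) (fun x => ∫ t in (0 : ℝ)..1, f (x, t)) := by
  intro E _ _ _ u x hu
  obtain ⟨U, hU, hUo, hxU⟩ := mem_nhds_iff.1 (DX.open' hu)
  have hg : ContDiffOn ℝ (⊤ : ℕ∞) (fun p : E × ℝ => f (u p.1, p.2)) (U ×ˢ univ) := by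
    rintro ⟨y, t⟩ ⟨hy, -⟩
    have h1 : Sm (fun p : E × ℝ => f (u p.1, p.2)) (y, t) := hf (at_cyl (hU hy) t)
    exact h1.contDiffAt.contDiffWithinAt
  exact Sm.of_contDiffOn (contDiffOn_time hUo hg) hUo hxU

/-- the same with a variable upper limit -/
theorem map_int_var {f : X × ℝ → ℝ} (hf : (DX.prod (Dif.lin ℝ)).Map (Dif.lin ℝ) f) :
    (DX.prod (Dif.lin ℝ)).Map (Dif.lin ℝ) (fun p => ∫ t in (0 : ℝ)..p.2, f (p.1, t)) := by
  have m1 : ((DX.prod (Dif.lin ℝ)).prod (Dif.lin ℝ)).Map (Dif.lin ℝ)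
      (fun z : (X × ℝ) × ℝ => z.1.2 * z.2) :=
    map_mul' (map_t.comp Dif.map_fst) map_t
  have m2 : ((DX.prod (Dif.lin ℝ)).prod (Dif.lin ℝ)).Map (Dif.lin ℝ)
      (fun z : (X × ℝ) × ℝ => f (z.1.1, z.1.2 * z.2)) :=
    fun {V} _ _ _ {u x} hu => hf (u := fun y => ((u y).1.1, (u y).1.2 * (u y).2)) ⟨hu.1.1, m1 hu⟩
  have m3 : (DX.prod (Dif.lin ℝ)).Map (Dif.lin ℝ)
      (fun p => p.2 * ∫ t in (0 : ℝ)..1, f (p.1, p.2 * t)) := map_mul' map_t (map_int m2)
  have e : (fun p : X × ℝ => p.2 * ∫ t in (0 : ℝ)..1, f (p.1, p.2 * t)) =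
      fun p => ∫ t in (0 : ℝ)..p.2, f (p.1, t) := by
    funext p
    have h4 := intervalIntegral.smul_integral_comp_mul_left (a := 0) (b := 1)
      (fun t => f (p.1, t)) p.2
    simp only [mul_zero, mul_one, smul_eq_mul] at h4
    exact h4
  rw [← e]
  intro V _ _ _ u x hu
  exact m3 hu

/-- the slices of a smooth function on a cylinder are smooth -/
theorem contDiff_slice {f : X × ℝ → ℝ} (hf : (DX.prod (Dif.lin ℝ)).Map (Dif.lin ℝ) f) {x : X}
    (hx : Gd DX x) : ContDiff ℝ ∞ (fun r => f (x, r)) := by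
  refine contDiff_iff_contDiffAt.2 fun r => ?_
  have h : Sm (fun r : ℝ => f (x, r)) r :=
    hf (u := fun r : ℝ => (x, r)) ⟨hx.at r, Sm.of_contDiff contDiff_id _⟩
  exact h.contDiffAt

/-- the solution of a scalar equation is smooth -/
theorem map_solve {Φ : X × ℝ → ℝ} (hΦ : (DX.prod (Dif.lin ℝ)).Map (Dif.lin ℝ) Φ) {h : X → ℝ}
    (h0 : ∀ x, Gd DX x → Φ (x, h x) = 0) (h1 : ∀ x, Gd DX x → ∀ r, Φ (x, r) = 0 → r = h x)
    (h2 : ∀ x, Gd DX x → deriv (fun r => Φ (x, r)) (h x) ≠ 0) : DX.Map (Dif.lin ℝ) h := by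
  intro V _ _ _ u x hu
  have : CompleteSpace V := FiniteDimensional.complete ℝ V
  have hx : Gd DX (u x) := (ev_gd hu).self_of_nhds
  have hs : Sm (fun p : V × ℝ => Φ (u p.1, p.2)) (x, h (u x)) := hΦ (at_cyl hu _)
  have hinj : ∀ η : ℝ, fderiv ℝ (fun p : V × ℝ => Φ (u p.1, p.2)) (x, h (u x)) (0, η) = 0 →
      η = 0 := by
    intro η hη
    have h4 : HasFDerivAt (fun r : ℝ => ((x, r) : V × ℝ)) (ContinuousLinearMap.inr ℝ V ℝ)
        (h (u x)) := hasFDerivAt_prodMk_right x _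
    have h5 := HasFDerivAt.comp (h (u x)) (g := fun p : V × ℝ => Φ (u p.1, p.2))
      hs.differentiableAt.hasFDerivAt h4
    have h6 : deriv (fun r => Φ (u x, r)) (h (u x)) =
        fderiv ℝ (fun p : V × ℝ => Φ (u p.1, p.2)) (x, h (u x)) (0, 1) := by
      simpa [Function.comp_def] using h5.hasDerivAt.deriv
    have h7 : ((0, η) : V × ℝ) = η • ((0, 1) : V × ℝ) := by simp
    rw [h7, map_smul, ← h6, smul_eq_mul] at hη
    exact (mul_eq_zero.1 hη).resolve_right (h2 _ hx)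
  obtain ⟨k, -, hk, -⟩ := Tube.square (V := V) (X := ℝ) (Y := ℝ) rfl hs (h0 _ hx) hinj
  have h3 : Sm k x := hk.mono fun y hy => hy.1
  refine h3.congr ?_
  filter_upwards [hk, ev_gd hu] with y k1 k2 using h1 _ k2 _ k1.2

/-- homotopic maps have cohomologous pullbacks -/
theorem pull_htpy {H : X × ℝ → Y} (hH : (DX.prod (Dif.lin ℝ)).Map DY H)
    {f g : X → Y} (hf : DX.Map DY f) (hg : DX.Map DY g) (h1 : ∀ x, Gd DX x → H (x, 1) = f x)
    (h0 : ∀ x, Gd DX x → H (x, 0) = g x) {w : Form DY} (hw : w.d = 0) :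
    Form.pull f hf w - Form.pull g hg w = (Form.K (Form.pull H hH w)).d := by
  have h := Form.homotopy (Form.pull H hH w)
  rw [← Form.pull_d, hw, Form.pull_zero', Form.K_zero', zero_add] at h
  rw [← h]
  have s1 : DX.Map (DX.prod (Dif.lin ℝ)) (fun x => (x, (1 : ℝ))) := Form.map_slice 1
  have s0 : DX.Map (DX.prod (Dif.lin ℝ)) (fun x => (x, (0 : ℝ))) := Form.map_slice 0
  refine Form.ext_val fun E _ _ _ u x hu => ?_
  rw [Form.sub_val, Form.sub_val, Form.pull_val _ _ hu, Form.pull_val _ _ hu, Form.pull_val _ _ hu,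
    Form.pull_val _ _ hu, Form.pull_val _ _ (s1 hu), Form.pull_val _ _ (s0 hu)]
  have e1 : w.val (f ∘ u) x = w.val (H ∘ ((fun x => (x, (1 : ℝ))) ∘ u)) x := by
    refine w.congr (hf hu) ?_
    filter_upwards [ev_gd hu] with y hy
    exact (h1 (u y) hy).symm
  have e0 : w.val (g ∘ u) x = w.val (H ∘ ((fun x => (x, (0 : ℝ))) ∘ u)) x := by
    refine w.congr (hg hu) ?_
    filter_upwards [ev_gd hu] with y hy
    exact (h0 (u y) hy).symm
  rw [e1, e0]

end

end Vale.Agent.P231Z.Quad
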