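import Vale.Agent.P231Z.Quad.Inst
import Vale.Agent.P231Z.Res.Main
import Vale.Agent.P231Z.Asm.Defs

/-! P231, loops and quadrilaterals (7): the residue map of the space of loops. -/

set_option maxSynthPendingDepth 3
set_option linter.unusedSectionVars false
set_option linter.unusedVariables false

open Bundle Manifold Set Filter Module
open scoped ContDiff Manifold Topology

namespace Vale.Agent.P231Z.Quad

noncomputable section

open Vale.Agent.P234 Vale.Agent.P231 Vale.Agent.P231.Fm Vale.Agent.P231.W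

variable {E : Type*} [NormedAddCommGroup E] [NormedSpace ℝ E]
  {M : Type*} [MetricSpace M] [ChartedSpace E M]
  [RiemannianBundle (fun x : M => TangentSpace 𝓘(ℝ, E) x)]
  {e : ∀ x : M, TangentSpace 𝓘(ℝ, E) x → M}
  [FiniteDimensional ℝ E] [IsManifold 𝓘(ℝ, E) ∞ M]
  [IsContMDiffRiemannianBundle 𝓘(ℝ, E) ∞ E (fun x : M => TangentSpace 𝓘(ℝ, E) x)]
  [CompactSpace M] [ConnectedSpace M] [IsRiemannianManifold 𝓘(ℝ, E) M]

/-- **the residue map of the space of loops** -/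
theorem exists_isRes (F : Facts e) {D : ℝ} (hD : 0 < D) (hB : InjGE e D)
    (hdiam : ∀ p q : M, dist p q ≤ D) {p : M} {n : ℕ}
    {Pi : TangentSpace 𝓘(ℝ, E) p → TangentSpace 𝓘(ℝ, E) p →L[ℝ] TangentSpace 𝓘(ℝ, E) p}
    {o : TangentSpace 𝓘(ℝ, E) p → Fm.Lam (TangentSpace 𝓘(ℝ, E) p)}
    {ρ : TangentSpace 𝓘(ℝ, E) p → ℝ} {r₀ : ℝ}
    (hl : ∀ x y : M, dist x y = D → finrank ℝ (H775.Pl e D x y) = 2 * n + 2)
    (hJ : FE.LineP e D p n Pi o) (hρ : WE.Rho e D p ρ r₀) (hN : 2 ≤ finrank ℝ E) :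
    ∃ R : Form (Loop.dX (dM E M) D) →ₗ[ℝ] Form (dUT E M),
      Res.IsRes (Loop.dX (dM E M) D) (dUT E M) (dM E M) (2 * n + 1) Loop.ev Loop.map_ev R := by
  obtain ⟨q, r, hq, hr, h1, h2⟩ := exists_quad_M F hD hB
  exact Res.exists_ResX F hD hB hdiam hl hJ hρ hN Loop.map_ev hq hr h1 h2

/-- the same for multiplicity seven -/
theorem exists_res (F : Facts e) {D : ℝ} (hD : 0 < D) (hB : InjGE e D)
    (hdiam : ∀ p q : M, dist p q ≤ D) {p : M}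
    {Pi : TangentSpace 𝓘(ℝ, E) p → TangentSpace 𝓘(ℝ, E) p →L[ℝ] TangentSpace 𝓘(ℝ, E) p}
    {o : TangentSpace 𝓘(ℝ, E) p → Fm.Lam (TangentSpace 𝓘(ℝ, E) p)}
    {ρ : TangentSpace 𝓘(ℝ, E) p → ℝ} {r₀ : ℝ}
    (hl : ∀ x y : M, dist x y = D → finrank ℝ (H775.Pl e D x y) = 2 * 3 + 2)
    (hJ : FE.LineP e D p 3 Pi o) (hρ : WE.Rho e D p ρ r₀) (hN : 2 ≤ finrank ℝ E) :
    ∃ R : Form (Loop.dX (dM E M) D) →ₗ[ℝ] Form (dUT E M),
      Asm.ResX (dUT E M) (dM E M) (Loop.dX (dM E M) D) Loop.ev Loop.map_ev R := by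
  obtain ⟨R, hR⟩ := exists_isRes F hD hB hdiam hl hJ hρ hN
  exact ⟨R, hR.d, hR.deg, hR.low, hR.ex⟩

end

end Vale.Agent.P231Z.Quad
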