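import Vale.Agent.P231Z.Quad.Speed

/-! P231, loops and quadrilaterals (3): a smooth family of loops shorter than `R` has a smooth
reparametrisation with speed less than `R`. -/

set_option linter.unusedSectionVars false
set_option linter.unusedVariables false

open Set Filter Module MeasureTheory
open scoped ContDiff Topology ENNReal

namespace Vale.Agent.P231Z.Quad

noncomputable section

open Vale.Agent.P231 Vale.Agent.P231.Fm

variable {M : Type*} [MetricSpace M] {DM : Dif M} {D R : ℝ} {X : Type*} {DX : Dif X}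
  {cv : X → ℝ → M}

/-- a smooth family of loops shorter than `R` -/
structure Lf (DX : Dif X) (DM : Dif M) (cv : X → ℝ → M) (R : ℝ) : Prop where
  ev : (DX.prod (Dif.lin ℝ)).Map DM (fun p => cv p.1 p.2)
  per : ∀ x t, cv x (t + 1) = cv x t
  var : ∀ x, Gd DX x → eVariationOn (cv x) (Icc 0 1) < ENNReal.ofReal R

theorem Lf.at (h : Lf DX DM cv R) {x : X} (hx : Gd DX x) (t : ℝ) : DM.At (cv x) t :=
  h.ev (u := fun t : ℝ => (x, t)) ⟨hx.at t, Sm.of_contDiff contDiff_id _⟩

theorem map_sg (hq : Sq DM D) (h : Lf DX DM cv R) :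
    (DX.prod (Dif.lin ℝ)).Map (Dif.lin ℝ) (fun p => sg (cv p.1) p.2) := by
  intro V _ _ _ u x hu
  have h1 : DM.At (fun p : V × ℝ => cv (u p.1).1 p.2) (x, (u x).2) :=
    h.ev (at_cyl (u := fun y => (u y).1) hu.1 (u x).2)
  have h2 := sm_sg hq (a := fun y => cv (u y).1) h1
  exact Sm.comp (g := fun y : V => ((y, (u y).2) : V × ℝ)) (x := x) h2
    (Sm.prodMk (Sm.of_contDiff contDiff_id _) hu.2)

/-- the regularised speed -/
def ell (c : ℝ → M) (l t : ℝ) : ℝ := Real.sqrt (sg c t + Real.exp l ^ 2)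

section Curve

variable (hq : Sq DM D) {c : ℝ → M} (hc : ∀ t, DM.At c t)
include hq hc

theorem ell_cont (l : ℝ) : Continuous (ell c l) := ((cont_sg hq hc).add continuous_const).sqrt

theorem exp_le_ell (l t : ℝ) : Real.exp l ≤ ell c l t :=
  Real.le_sqrt_of_sq_le (le_add_of_nonneg_left (sg_nonneg hq hc t))

theorem speed_le_ell (l t : ℝ) : Real.sqrt (sg c t) ≤ ell c l t :=
  Real.sqrt_le_sqrt (le_add_of_nonneg_right (sq_nonneg _))

theorem ell_le (l t : ℝ) : ell c l t ≤ Real.sqrt (sg c t) + Real.exp l := by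
  refine Real.sqrt_le_iff.2 ⟨add_nonneg (Real.sqrt_nonneg _) (Real.exp_pos l).le, ?_⟩
  have h1 := Real.sq_sqrt (sg_nonneg hq hc t)
  have h2 := mul_nonneg (Real.sqrt_nonneg (sg c t)) (Real.exp_pos l).le
  nlinarith only [h1, h2]

theorem ell_mono : Monotone fun l => ∫ t in (0 : ℝ)..1, ell c l t := by
  intro l l' h
  refine intervalIntegral.integral_mono_on zero_le_one ((ell_cont hq hc l).intervalIntegrable _ _)
    ((ell_cont hq hc l').intervalIntegrable _ _) fun t _ => Real.sqrt_le_sqrt ?_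
  have h1 := Real.exp_le_exp.2 h
  have h2 := pow_le_pow_left₀ (Real.exp_pos l).le h1 2
  linarith

end Curve

theorem map_ell (hq : Sq DM D) (h : Lf DX DM cv R) :
    ((DX.prod (Dif.lin ℝ)).prod (Dif.lin ℝ)).Map (Dif.lin ℝ)
      (fun z => ell (cv z.1.1) z.1.2 z.2) := by
  have m1 : ((DX.prod (Dif.lin ℝ)).prod (Dif.lin ℝ)).Map (Dif.lin ℝ)
      (fun z => sg (cv z.1.1) z.2) :=
    fun {V} _ _ _ {u x} hu => map_sg hq h (u := fun y => ((u y).1.1, (u y).2)) ⟨hu.1.1, hu.2⟩
  have m2 : ((DX.prod (Dif.lin ℝ)).prod (Dif.lin ℝ)).Map (Dif.lin ℝ)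
      (fun z => Real.exp z.1.2 ^ 2) :=
    map_fun (φ := fun r => Real.exp r ^ 2) (map_t.comp Dif.map_fst) (Real.contDiff_exp.pow 2)
  intro V _ _ _ u x hu
  refine map_sqrt (map_add' m1 m2) (fun z hz => ?_) hu
  exact add_pos_of_nonneg_of_pos (sg_nonneg hq (h.at hz.fst.fst) _) (pow_pos (Real.exp_pos _) 2)

/-- the choice of the regularisation -/
theorem exists_lam (hq : Sq DM D) (h : Lf DX DM cv R) :
    ∃ lam : X → ℝ, DX.Map (Dif.lin ℝ) lam ∧
      ∀ x, Gd DX x → ∫ t in (0 : ℝ)..1, ell (cv x) (lam x) t < R := by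
  have m1 : (DX.prod (Dif.lin ℝ)).Map (Dif.lin ℝ)
      (fun p => ∫ t in (0 : ℝ)..1, ell (cv p.1) p.2 t) := map_int (map_ell hq h)
  have m2 : (DX.prod (Dif.lin ℝ)).Map (Dif.lin ℝ)
      (fun p => (∫ t in (0 : ℝ)..1, ell (cv p.1) p.2 t) + (Real.exp p.2 - R)) :=
    map_add' m1 (map_fun (φ := fun r => Real.exp r - R) map_t
      (Real.contDiff_exp.sub contDiff_const))
  have hex : ∀ x, ∃ l, Gd DX x → (∫ t in (0 : ℝ)..1, ell (cv x) l t) + (Real.exp l - R) = 0 := by
    intro x
    by_cases hx : Gd DX x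
    swap
    · exact ⟨0, fun h => absurd h hx⟩
    have hc := h.at hx
    have hv := h.var x hx
    have h1 := int_le_var hq hc hv.ne_top
    have h2 : (eVariationOn (cv x) (Icc 0 1)).toReal < R := ENNReal.toReal_lt_of_lt_ofReal hv
    set L := ∫ t in (0 : ℝ)..1, Real.sqrt (sg (cv x) t) with hL
    have h3 : 0 < (R - L) / 2 := by linarith
    have h4 : 0 < R := lt_of_le_of_lt ENNReal.toReal_nonneg h2
    have hs : Continuous fun t => Real.sqrt (sg (cv x) t) := (cont_sg hq hc).sqrt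
    have h5 : ∀ l, ∫ t in (0 : ℝ)..1, ell (cv x) l t ≤ L + Real.exp l := by
      intro l
      have k := intervalIntegral.integral_mono_on (μ := volume)
        (g := fun t => Real.sqrt (sg (cv x) t) + Real.exp l) zero_le_one
        ((ell_cont hq hc l).intervalIntegrable _ _)
        ((hs.add (continuous_const (y := Real.exp l))).intervalIntegrable _ _)
        fun t _ => ell_le hq hc l t
      rw [intervalIntegral.integral_add (hs.intervalIntegrable _ _)
        (continuous_const.intervalIntegrable _ _)] at k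
      simpa using k
    have h6 : ∀ l, 0 ≤ ∫ t in (0 : ℝ)..1, ell (cv x) l t := fun l =>
      intervalIntegral.integral_nonneg zero_le_one fun t _ => Real.sqrt_nonneg _
    have h7 := intermediate_value_univ (Real.log ((R - L) / 2)) (Real.log R)
      (contDiff_slice m2 hx).continuous
    have h8 := h5 (Real.log ((R - L) / 2))
    simp only [Real.exp_log h3, Real.exp_log h4] at h7 h8
    obtain ⟨l, hl⟩ := h7 (show (0 : ℝ) ∈ _ from ⟨by linarith, by linarith [h6 (Real.log R)]⟩)
    exact ⟨l, fun _ => hl⟩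
  choose lam hlam using hex
  have hmono : ∀ x, Gd DX x →
      StrictMono fun l => (∫ t in (0 : ℝ)..1, ell (cv x) l t) + (Real.exp l - R) := fun x hx =>
    (ell_mono hq (h.at hx)).add_strictMono fun a b hab => sub_lt_sub_right (Real.exp_lt_exp.2 hab) R
  refine ⟨lam, map_solve m2 hlam (fun x hx r hr => (hmono x hx).injective (hr.trans (hlam x hx).symm))
    fun x hx => ?_, fun x hx => ?_⟩
  · have k1 : DifferentiableAt ℝ (fun l => ∫ t in (0 : ℝ)..1, ell (cv x) l t) (lam x) :=
      ((contDiff_slice m1 hx).differentiable (by simp)).differentiableAt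
    have k2 := k1.hasDerivAt.add ((Real.hasDerivAt_exp (lam x)).sub_const R)
    have k3 : 0 ≤ deriv (fun l => ∫ t in (0 : ℝ)..1, ell (cv x) l t) (lam x) :=
      (ell_mono hq (h.at hx)).deriv_nonneg
    have k4 := k2.deriv
    have k5 : deriv (fun r => (∫ t in (0 : ℝ)..1, ell (cv x) r t) + (Real.exp r - R)) (lam x) =
      deriv (fun l => ∫ t in (0 : ℝ)..1, ell (cv x) l t) (lam x) + Real.exp (lam x) := k4
    exact k5 ▸ (add_pos_of_nonneg_of_pos k3 (Real.exp_pos _)).ne'
  · linarith [hlam x hx, Real.exp_pos (lam x)]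

/-- **the reparametrisation** -/
theorem exists_par (hq : Sq DM D) (h : Lf DX DM cv R) :
    ∃ τ : X × ℝ → ℝ, (DX.prod (Dif.lin ℝ)).Map (Dif.lin ℝ) τ ∧ (∀ x, τ (x, 0) = 0) ∧
      (∀ x s, τ (x, s + 1) = τ (x, s) + 1) ∧ (∀ x, Monotone fun s => τ (x, s)) ∧
      ∀ x, Gd DX x → ∃ L < R, ∀ s s', s ≤ s' →
        dist (cv x (τ (x, s))) (cv x (τ (x, s'))) ≤ L * (s' - s) := by
  classical
  obtain ⟨lam, hlam, hR⟩ := exists_lam hq h
  have m1 : (DX.prod (Dif.lin ℝ)).Map (Dif.lin ℝ) (fun p => ell (cv p.1) (lam p.1) p.2) :=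
    fun {V} _ _ _ {u x} hu => map_ell hq h (u := fun y => (((u y).1, lam (u y).1), (u y).2))
      ⟨⟨hu.1, hlam hu.1⟩, hu.2⟩
  set W : X → ℝ → ℝ := fun x t => ∫ r in (0 : ℝ)..t, ell (cv x) (lam x) r with hW
  have m2 : (DX.prod (Dif.lin ℝ)).Map (Dif.lin ℝ) (fun p => W p.1 p.2) := map_int_var m1
  have hd : ∀ x, Gd DX x → ∀ t, HasDerivAt (W x) (ell (cv x) (lam x) t) t := fun x hx t =>
    intervalIntegral.integral_hasDerivAt_right ((ell_cont hq (h.at hx) _).intervalIntegrable _ _)
      (ell_cont hq (h.at hx) _).aestronglyMeasurable.stronglyMeasurableAtFilter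
      (ell_cont hq (h.at hx) _).continuousAt
  have hpos : ∀ x, Gd DX x → ∀ t, 0 < ell (cv x) (lam x) t := fun x hx t =>
    (Real.exp_pos _).trans_le (exp_le_ell hq (h.at hx) _ t)
  have hsm : ∀ x, Gd DX x → StrictMono (W x) := fun x hx =>
    strictMono_of_hasDerivAt_pos (hd x hx) (hpos x hx)
  have h0 : ∀ x, W x 0 = 0 := fun x => intervalIntegral.integral_same
  have hper : ∀ x, Gd DX x → ∀ t, W x (t + 1) = W x t + W x 1 := by
    intro x hx t
    have k1 : Function.Periodic (ell (cv x) (lam x)) 1 := fun t => by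
      rw [ell, sg_per (h.per x), ell]
    have k2 := k1.intervalIntegral_add_eq t 0
    rw [zero_add] at k2
    have k3 := intervalIntegral.integral_add_adjacent_intervals (μ := volume)
      ((ell_cont hq (h.at hx) (lam x)).intervalIntegrable 0 t)
      ((ell_cont hq (h.at hx) (lam x)).intervalIntegrable t (t + 1))
    simp only [hW]
    rw [← k3, k2]
  have hsur : ∀ x, Gd DX x → Function.Surjective (W x) := by
    intro x hx
    have k1 : Monotone fun t => W x t - Real.exp (lam x) * t :=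
      monotone_of_hasDerivAt_nonneg (f' := fun t => ell (cv x) (lam x) t - Real.exp (lam x))
        (fun t => (hd x hx t).fun_sub (hasDerivAt_const_mul (Real.exp (lam x))))
        fun t => sub_nonneg.2 (exp_le_ell hq (h.at hx) _ t)
    refine Continuous.surjective (continuous_iff_continuousAt.2 fun t => (hd x hx t).continuousAt)
      ?_ ?_
    · refine tendsto_atTop_mono' _ ?_ (tendsto_id.const_mul_atTop (Real.exp_pos (lam x)))
      filter_upwards [eventually_ge_atTop 0] with t ht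
      have k2 := k1 ht
      simp only [h0, id] at k2 ⊢
      linarith
    · refine tendsto_atBot_mono' _ ?_ (tendsto_id.const_mul_atBot (Real.exp_pos (lam x)))
      filter_upwards [eventually_le_atBot 0] with t ht
      have k2 := k1 ht
      simp only [h0, id] at k2 ⊢
      linarith
  have hex : ∀ p : X × ℝ, ∃ t, (Gd DX p.1 → W p.1 t = p.2 * W p.1 1) ∧ (¬ Gd DX p.1 → t = p.2) := by
    intro p
    by_cases hp : Gd DX p.1
    · obtain ⟨t, ht⟩ := hsur p.1 hp (p.2 * W p.1 1)
      exact ⟨t, fun _ => ht, fun k => absurd hp k⟩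
    · exact ⟨p.2, fun k => absurd k hp, fun _ => rfl⟩
  choose τ hτ hτ' using hex
  have hL : ∀ x, Gd DX x → 0 < W x 1 := fun x hx => by
    have k := hsm x hx zero_lt_one
    rwa [h0] at k
  have hmono : ∀ x, Monotone fun s => τ (x, s) := by
    intro x s s' hs
    by_cases hx : Gd DX x
    · refine (hsm x hx).le_iff_le.1 ?_
      rw [hτ (x, s) hx, hτ (x, s') hx]
      exact mul_le_mul_of_nonneg_right hs (hL x hx).le
    · simp only
      rw [hτ' (x, s) hx, hτ' (x, s') hx]
      exact hs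
  refine ⟨τ, ?_, fun x => ?_, fun x s => ?_, hmono, fun x hx => ⟨W x 1, hR x hx, fun s s' hs => ?_⟩⟩
  · have m3 : ((DX.prod (Dif.lin ℝ)).prod (Dif.lin ℝ)).Map (Dif.lin ℝ)
        (fun z => W z.1.1 z.2) :=
      fun {V} _ _ _ {u x} hu => m2 (u := fun y => ((u y).1.1, (u y).2)) ⟨hu.1.1, hu.2⟩
    have m4 : ((DX.prod (Dif.lin ℝ)).prod (Dif.lin ℝ)).Map (Dif.lin ℝ)
        (fun z => W z.1.1 1) :=
      fun {V} _ _ _ {u x} hu => m2 (u := fun y => ((u y).1.1, 1))
        ⟨hu.1.1, Sm.of_contDiff contDiff_const _⟩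
    have m5 : ((DX.prod (Dif.lin ℝ)).prod (Dif.lin ℝ)).Map (Dif.lin ℝ)
        (fun z => W z.1.1 z.2 - z.1.2 * W z.1.1 1) :=
      map_sub' m3 (map_mul' (map_t.comp Dif.map_fst) m4)
    intro V _ _ _ u x hu
    refine map_solve m5 (fun p hp => sub_eq_zero.2 (hτ p hp.fst))
      (fun p hp r hr => (hsm _ hp.fst).injective ((sub_eq_zero.1 hr).trans (hτ p hp.fst).symm))
      (fun p hp => ?_) hu
    have k := ((hd p.1 hp.fst (τ p)).sub_const (p.2 * W p.1 1)).deriv
    exact k ▸ (hpos p.1 hp.fst _).ne'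
  · by_cases hx : Gd DX x
    · refine (hsm x hx).injective ?_
      rw [hτ (x, 0) hx, h0, zero_mul]
    · exact hτ' (x, 0) hx
  · by_cases hx : Gd DX x
    · refine (hsm x hx).injective ?_
      rw [hτ (x, s + 1) hx, hper x hx, hτ (x, s) hx]
      ring
    · rw [hτ' (x, s + 1) hx, hτ' (x, s) hx]
  · have k := dist_le_of_deriv hq (h.at hx) (hd x hx) (speed_le_ell hq (h.at hx) _) (hmono x hs)
    simp only at k
    rw [hτ (x, s) hx, hτ (x, s') hx] at k
    simp only at k
    linarith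

end

end Vale.Agent.P231Z.Quad
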