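import Vale.Agent.P231Z.Quad.Calc

/-! P231, loops and quadrilaterals (2): the metric speed of a smooth curve; the length is the
integral of the speed. -/

set_option linter.unusedSectionVars false
set_option linter.unusedVariables false

open Set Filter Module MeasureTheory
open scoped ContDiff Topology ENNReal

namespace Vale.Agent.P231Z.Quad

noncomputable section

open Vale.Agent.P231 Vale.Agent.P231.Fm

variable {M : Type*} [MetricSpace M] {DM : Dif M} {D : ℝ}

/-- plots are continuous and the square of the distance is smooth below `D` -/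
structure Sq (DM : Dif M) (D : ℝ) : Prop where
  pos : 0 < D
  cont : ∀ {V : Type} [NormedAddCommGroup V] [NormedSpace ℝ V] [FiniteDimensional ℝ V]
    {u : V → M} {x : V}, DM.At u x → ContinuousAt u x
  sq : ∀ {V : Type} [NormedAddCommGroup V] [NormedSpace ℝ V] [FiniteDimensional ℝ V]
    {a b : V → M} {x : V}, DM.At a x → DM.At b x → dist (a x) (b x) < D →
      Sm (fun y => dist (a y) (b y) ^ 2) x

/-- the square of the speed -/
def sg (c : ℝ → M) (t : ℝ) : ℝ := deriv (deriv (fun h => dist (c t) (c (t + h)) ^ 2)) 0 / 2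

theorem sg_per {c : ℝ → M} (hc : ∀ t, c (t + 1) = c t) (t : ℝ) : sg c (t + 1) = sg c t := by
  have h : (fun h => dist (c (t + 1)) (c (t + 1 + h)) ^ 2) = fun h => dist (c t) (c (t + h)) ^ 2 := by
    funext h
    rw [add_right_comm, hc, hc]
  rw [sg, h, sg]

theorem sm_sg (hq : Sq DM D) {V : Type} [NormedAddCommGroup V] [NormedSpace ℝ V]
    [FiniteDimensional ℝ V] {a : V → ℝ → M} {p : V × ℝ}
    (ha : DM.At (fun p : V × ℝ => a p.1 p.2) p) : Sm (fun p : V × ℝ => sg (a p.1) p.2) p := by
  have h1 : DM.At (fun z : (V × ℝ) × ℝ => a z.1.1 z.1.2) (p, 0) :=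
    DM.comp (u := fun p : V × ℝ => a p.1 p.2) (g := Prod.fst) (x := ((p, 0) : (V × ℝ) × ℝ)) ha
      (Sm.of_contDiff contDiff_fst _)
  have h2 : DM.At (fun z : (V × ℝ) × ℝ => a z.1.1 (z.1.2 + z.2)) (p, 0) := by
    refine DM.comp (u := fun p : V × ℝ => a p.1 p.2)
      (g := fun z : (V × ℝ) × ℝ => (z.1.1, z.1.2 + z.2)) (x := ((p, 0) : (V × ℝ) × ℝ)) ?_
      (Sm.of_contDiff (contDiff_fst.fst.prodMk (contDiff_fst.snd.add contDiff_snd)) _)
    simpa using ha
  have h3 := hq.sq h1 h2 (by simpa using hq.pos)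
  have h4 := sm_deriv (sm_deriv h3)
  have h5 := Sm.comp (g := fun q : V × ℝ => ((q, 0) : (V × ℝ) × ℝ)) (x := p) h4
    (Sm.of_contDiff (contDiff_id.prodMk contDiff_const) _)
  filter_upwards [h5] with y hy using hy.div_const 2

section Curve

variable (hq : Sq DM D) {c : ℝ → M} (hc : ∀ t, DM.At c t)
include hq hc

theorem cont_curve : Continuous c := continuous_iff_continuousAt.2 fun t => hq.cont (hc t)

theorem cont_sg : Continuous (sg c) := by
  refine continuous_iff_continuousAt.2 fun t => ?_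
  have h1 : DM.At (fun p : ℝ × ℝ => c p.2) (0, t) :=
    DM.comp (u := c) (g := Prod.snd) (x := ((0, t) : ℝ × ℝ)) (hc t) (Sm.of_contDiff contDiff_snd _)
  have h2 := sm_sg hq (a := fun _ : ℝ => c) h1
  exact (Sm.comp (g := fun s : ℝ => ((0, s) : ℝ × ℝ)) (x := t) h2
    (Sm.of_contDiff (contDiff_const.prodMk contDiff_id) _)).continuousAt

theorem tendsto_sg (t : ℝ) :
    Tendsto (fun h => dist (c t) (c (t + h)) ^ 2 / h ^ 2) (𝓝[>] 0) (𝓝 (sg c t)) := by
  have h1 : DM.At (fun _ : ℝ => c t) 0 := Dif.At_const (hc t) 0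
  have h2 : DM.At (fun h : ℝ => c (t + h)) 0 :=
    DM.comp (u := c) (g := fun h : ℝ => t + h) (x := 0) (hc _)
      (Sm.of_contDiff (contDiff_const.add contDiff_id) _)
  have h3 : Sm (fun h : ℝ => dist (c t) (c (t + h)) ^ 2) 0 := hq.sq h1 h2 (by simpa using hq.pos)
  set φ : ℝ → ℝ := fun h : ℝ => dist (c t) (c (t + h)) ^ 2 with hφ
  have h0 : φ 0 = 0 := by simp [hφ]
  have h4 : deriv φ 0 = 0 := by
    refine IsLocalMin.deriv_eq_zero (Eventually.of_forall fun h => ?_)
    rw [h0]
    exact sq_nonneg _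
  have h5 : HasDerivAt (deriv φ) (deriv (deriv φ) 0) 0 := by
    have h6 : ContDiffAt ℝ 1 (deriv φ) 0 := h3.contDiffAt.derivWithin (m := 1) (by
      exact WithTop.coe_le_coe.2 le_top)
    exact (h6.differentiableAt (by simp)).hasDerivAt
  have h6 := (hasDerivAt_iff_tendsto_slope_zero.1 h5).mono_left (nhdsGT_le_nhdsNE 0)
  have h7 : Tendsto (fun h : ℝ => deriv φ h / (2 * h)) (𝓝[>] 0) (𝓝 (sg c t)) := by
    refine (h6.div_const 2).congr fun h => ?_
    rw [zero_add, h4, sub_zero, smul_eq_mul]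
    field_simp
  refine HasDerivAt.lhopital_zero_nhdsGT (f' := deriv φ) (g' := fun h => 2 * h) ?_ ?_ ?_ ?_ ?_ h7
  · refine eventually_nhdsWithin_of_eventually_nhds ?_
    filter_upwards [h3.eventually] with h k using k.differentiableAt.hasDerivAt
  · exact Eventually.of_forall fun h => by simpa using hasDerivAt_pow 2 h
  · filter_upwards [self_mem_nhdsWithin] with h k using (mul_pos two_pos k).ne'
  · have h8 := h3.continuousAt.tendsto
    rw [h0] at h8
    exact h8.mono_left nhdsWithin_le_nhds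
  · have h8 : Tendsto (fun h : ℝ => h ^ 2) (𝓝 0) (𝓝 (0 ^ 2)) := (continuous_pow 2).tendsto 0
    rw [zero_pow two_ne_zero] at h8
    exact h8.mono_left nhdsWithin_le_nhds

theorem sg_nonneg (t : ℝ) : 0 ≤ sg c t :=
  ge_of_tendsto' (tendsto_sg hq hc t) fun h => div_nonneg (sq_nonneg _) (sq_nonneg _)

theorem tendsto_speed (t : ℝ) :
    Tendsto (fun z => dist (c t) (c z) / (z - t)) (𝓝[>] t) (𝓝 (Real.sqrt (sg c t))) := by
  have h1 : Tendsto (fun z => z - t) (𝓝[>] t) (𝓝[>] 0) := by
    refine tendsto_nhdsWithin_iff.2 ⟨?_, ?_⟩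
    · have h2 : Tendsto (fun z => z - t) (𝓝 t) (𝓝 (t - t)) :=
        (continuous_id.sub continuous_const).tendsto t
      rw [sub_self] at h2
      exact h2.mono_left nhdsWithin_le_nhds
    · filter_upwards [self_mem_nhdsWithin] with z hz
      exact sub_pos.2 (show t < z from hz)
  refine ((tendsto_sg hq hc t).comp h1).sqrt.congr' ?_
  filter_upwards [self_mem_nhdsWithin] with z hz
  have h2 : 0 < z - t := sub_pos.2 hz
  simp only [Function.comp]
  rw [add_sub_cancel, ← div_pow, Real.sqrt_sq (div_nonneg dist_nonneg h2.le)]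

/-- the distance is at most the integral of the speed -/
theorem dist_le_of_deriv {B B' : ℝ → ℝ} (hB : ∀ x, HasDerivAt B (B' x) x)
    (h : ∀ x, Real.sqrt (sg c x) ≤ B' x) {a b : ℝ} (hab : a ≤ b) :
    dist (c a) (c b) ≤ B b - B a := by
  have hBc : Continuous B := continuous_iff_continuousAt.2 fun x => (hB x).continuousAt
  refine image_le_of_liminf_slope_right_le_deriv_boundary (f := fun x => dist (c a) (c x))
    (a := a) (b := b) (B := fun x => B x - B a) (B' := B')
    (continuous_const.dist (cont_curve hq hc)).continuousOn (by simp)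
    (hBc.sub continuous_const).continuousOn
    (fun x _ => ((hB x).sub_const _).hasDerivWithinAt) (fun x _ r hr => ?_) ⟨hab, le_rfl⟩
  refine Eventually.frequently ?_
  filter_upwards [(tendsto_speed hq hc x).eventually_lt_const ((h x).trans_lt hr),
    self_mem_nhdsWithin] with z k1 k2
  have h2 : 0 < z - x := sub_pos.2 k2
  refine lt_of_le_of_lt ?_ k1
  rw [slope_def_field]
  refine div_le_div_of_nonneg_right ?_ h2.le
  linarith [dist_triangle (c a) (c x) (c z)]

end Curve

/-- a curve dominated by a monotone function has at most its variation -/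
theorem var_le_of_dom {c : ℝ → M} {B : ℝ → ℝ} {a b : ℝ} (hab : a ≤ b)
    (h : ∀ x ∈ Icc a b, ∀ y ∈ Icc a b, x ≤ y → dist (c x) (c y) ≤ B y - B x) :
    eVariationOn c (Icc a b) ≤ ENNReal.ofReal (B b - B a) := by
  have hm : MonotoneOn B (Icc a b) := fun x hx y hy hxy => by
    linarith [h x hx y hy hxy, dist_nonneg (x := c x) (y := c y)]
  have h1 := (hm.eVariationOn_eq (a := a) (b := b) ⟨le_rfl, hab⟩ ⟨hab, le_rfl⟩).le
  rw [inter_self] at h1
  refine le_trans ?_ h1
  refine iSup_mono fun p => Finset.sum_le_sum fun i _ => ?_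
  obtain ⟨n, u, hu, us⟩ := p
  have h2 := h _ (us i) _ (us (i + 1)) (hu (Nat.le_succ i))
  rw [edist_dist, edist_dist, dist_comm]
  refine ENNReal.ofReal_le_ofReal (h2.trans ?_)
  rw [Real.dist_eq]
  exact le_abs_self _

/-- the integral of the speed is at most the variation -/
theorem int_le_var (hq : Sq DM D) {c : ℝ → M} (hc : ∀ t, DM.At c t)
    (hfin : eVariationOn c (Icc 0 1) ≠ ⊤) :
    ∫ t in (0 : ℝ)..1, Real.sqrt (sg c t) ≤ (eVariationOn c (Icc 0 1)).toReal := by
  have hs : Continuous fun t => Real.sqrt (sg c t) := (cont_sg hq hc).sqrt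
  set A : ℝ → ℝ := fun x => ∫ t in (0 : ℝ)..x, Real.sqrt (sg c t) with hA
  have hAd : ∀ x, HasDerivAt A (Real.sqrt (sg c x)) x := fun x =>
    intervalIntegral.integral_hasDerivAt_right (hs.intervalIntegrable _ _)
      hs.aestronglyMeasurable.stronglyMeasurableAtFilter hs.continuousAt
  have hAc : Continuous A := continuous_iff_continuousAt.2 fun x => (hAd x).continuousAt
  set W : ℝ → ℝ := fun x => (eVariationOn c (Icc 0 x)).toReal with hW
  have hsub : ∀ x y, 0 ≤ x → y ≤ 1 → eVariationOn c (Icc x y) ≠ ⊤ := fun x y hx hy =>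
    ne_top_of_le_ne_top hfin (eVariationOn.mono c (Icc_subset_Icc hx hy))
  have hadd : ∀ x y, 0 ≤ x → x ≤ y → y ≤ 1 → W y - W x = (eVariationOn c (Icc x y)).toReal := by
    intro x y hx hxy hy
    have h1 := eVariationOn.Icc_add_Icc c (s := univ) (a := 0) (b := x) (c := y) hx hxy (mem_univ _)
    simp only [univ_inter] at h1
    have h2 := congrArg ENNReal.toReal h1
    rw [ENNReal.toReal_add (hsub 0 x le_rfl (hxy.trans hy)) (hsub x y hx hy)] at h2
    simp only [hW]
    linarith
  have hup : ∀ x y, 0 ≤ x → x ≤ y → y ≤ 1 → 0 ≤ W y - W x ∧ W y - W x ≤ A y - A x := by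
    intro x y hx hxy hy
    rw [hadd x y hx hxy hy]
    refine ⟨ENNReal.toReal_nonneg, ?_⟩
    have h1 := var_le_of_dom (c := c) (B := A) hxy fun p _ q _ hpq =>
      dist_le_of_deriv hq hc hAd (fun _ => le_rfl) hpq
    refine ENNReal.toReal_le_of_le_ofReal ?_ h1
    linarith [dist_le_of_deriv hq hc hAd (fun _ => le_rfl) hxy, dist_nonneg (x := c x) (y := c y)]
  have hWc : ContinuousOn W (Icc 0 1) := by
    intro x hx
    refine tendsto_iff_dist_tendsto_zero.2 ?_
    have h1 : Tendsto (fun y => dist (A y) (A x)) (𝓝[Icc 0 1] x) (𝓝 0) :=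
      (tendsto_iff_dist_tendsto_zero.1 (hAc.tendsto x)).mono_left nhdsWithin_le_nhds
    refine squeeze_zero' (Eventually.of_forall fun _ => dist_nonneg) ?_ h1
    filter_upwards [self_mem_nhdsWithin] with y hy
    rw [Real.dist_eq, Real.dist_eq]
    rcases le_total x y with h | h
    · obtain ⟨k1, k2⟩ := hup x y hx.1 h hy.2
      rw [abs_of_nonneg k1]
      exact k2.trans (le_abs_self _)
    · obtain ⟨k1, k2⟩ := hup y x hy.1 h hx.2
      rw [abs_sub_comm, abs_of_nonneg k1, abs_sub_comm]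
      exact k2.trans (le_abs_self _)
  have key := image_le_of_liminf_slope_right_le_deriv_boundary (f := fun x => -W x)
    (a := 0) (b := 1) (B := fun x => -A x) (B' := fun x => -Real.sqrt (sg c x)) hWc.neg
    (by simp [hA, hW]) hAc.neg.continuousOn (fun x _ => (hAd x).neg.hasDerivWithinAt)
    (fun x hx r hr => ?_) ⟨zero_le_one, le_rfl⟩
  · exact neg_le_neg_iff.1 key
  refine Eventually.frequently ?_
  have hr' : -r < Real.sqrt (sg c x) := by linarith
  filter_upwards [(tendsto_speed hq hc x).eventually_const_lt hr', self_mem_nhdsWithin,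
    nhdsWithin_le_nhds (Iio_mem_nhds hx.2)] with z k1 k2 k3
  have h2 : 0 < z - x := sub_pos.2 k2
  have h3 : dist (c x) (c z) ≤ W z - W x := by
    rw [hadd x z hx.1 (le_of_lt k2) (le_of_lt k3), dist_edist]
    exact ENNReal.toReal_mono (hsub x z hx.1 (le_of_lt k3))
      (eVariationOn.edist_le c ⟨le_rfl, le_of_lt k2⟩ ⟨le_of_lt k2, le_rfl⟩)
  rw [slope_def_field, div_lt_iff₀ h2]
  rw [lt_div_iff₀ h2] at k1
  linarith

end

end Vale.Agent.P231Z.Quad
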